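import Vale.Agent.P321.H79.DeckFin

/-!
Lower bounds for worst-case trace reconstruction when the deletion probability tends to one:
`T_q(n) ≥ exp (exp (c √(log t)) (1 + log (1 / (t (1 - q)))))` for `t₀ ≤ t ≤ n`, `t (1 - q) ≤ 1`;
`T_q(n)` is not quasi-polynomial for `1 - q ≤ exp (-K (log log n) ^ 2)` with `K → ∞`.
-/

namespace Vale.Agent.Results.P321.HighDeletion

open Vale.Agent.P321
open scoped unitInterval

theorem result : (∃ c : ℝ, 0 < c ∧ ∃ t₀ : ℝ, ∀ (q : I) (n : ℕ) (t : ℝ), t₀ ≤ t → t ≤ n →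
      t * (1 - (q : ℝ)) ≤ 1 →
      (⌈Real.exp (Real.exp (c * √(Real.log t)) *
        (1 + Real.log (1 / (t * (1 - (q : ℝ))))))⌉₊ : ℕ∞) ≤ T q n) ∧
    ∀ A : ℝ, ∃ (K : ℝ) (n₀ : ℕ), ∀ (q : I) (n : ℕ), n₀ ≤ n →
      1 - (q : ℝ) ≤ Real.exp (-(K * Real.log (Real.log n) ^ 2)) →
      (⌈Real.exp (Real.log n ^ A)⌉₊ : ℕ∞) ≤ T q n :=
  ⟨⟨1 / 8, by norm_num, Real.exp 400, fun q n t h1 h2 h3 => H79.Deck.lower q n t h1 h2 h3⟩,
    H79.Deck.lower_log⟩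

end Vale.Agent.Results.P321.HighDeletion
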