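import Vale.Agent.P321.H79.Fin

/-!
Upper bounds for worst-case trace reconstruction at small deletion probability: for every `a > 2`
there is `C > 0` with `T_q(n) ≤ exp (C log n (1 + log n / log (1 / q)) ^ (a - 1))` for all
`q ∈ (0, 1/2]` and all `n ≥ 2`; and for every `δ > 0` there is `C > 0` with `T_q(n) ≤ n ^ C` for all
`n ≥ 2` and all `q ≤ n ^ (-δ)`.
-/

namespace Vale.Agent.Results.P321.SmallDeletion

open Vale.Agent.P321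
open scoped unitInterval

theorem result : (∀ a : ℝ, 2 < a → ∃ C : ℝ, 0 < C ∧ ∀ q : I, 0 < (q : ℝ) → (q : ℝ) ≤ 1 / 2 →
      ∀ n : ℕ, 2 ≤ n →
        T q n ≤ (⌊Real.exp (C * Real.log n *
          (1 + Real.log n / Real.log (1 / (q : ℝ))) ^ (a - 1))⌋₊ : ℕ∞)) ∧
    ∀ δ : ℝ, 0 < δ → ∃ C : ℝ, 0 < C ∧ ∀ n : ℕ, 2 ≤ n → ∀ q : I, (q : ℝ) ≤ (n : ℝ) ^ (-δ) →
      T q n ≤ (⌊(n : ℝ) ^ C⌋₊ : ℕ∞) :=
  ⟨fun _ ha => H79.T_half ha, fun _ hδ => H79.T_poly hδ⟩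

end Vale.Agent.Results.P321.SmallDeletion
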